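import Vale.Agent.P104.Similar

/-! Quantitative invariant operator. -/

namespace Vale.Agent.P096H

open scoped BigOperators InnerProductSpace ComplexConjugate
open Filter Vale.Agent.P104

variable {A : Type*} [CStarAlgebra A] [PartialOrder A] [StarOrderedRing A]
variable {H : Type*} [NormedAddCommGroup H] [InnerProductSpace ℂ H] [CompleteSpace H]
variable {π : A →ₐ[ℂ] (H →L[ℂ] H)} {c : ℝ}

theorem form_q (hc : 0 ≤ c) (hπ : ∀ a, ‖π a‖ ≤ c * ‖a‖) {K : ℝ} (hK : K = 4 * (K2 c + 1) ^ 2) :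
    ∃ g : (H → ℝ) →ₗ[ℝ] ℝ, (∀ v, ‖v‖ ^ 2 ≤ g fun y => ‖⟪v, y⟫_ℂ‖ ^ 2) ∧
    (∀ v, (g fun y => ‖⟪v, y⟫_ℂ‖ ^ 2) ≤ K * ‖v‖ ^ 2) ∧
    ∀ u ∈ unitary A, ∀ v, (g fun y => ‖⟪v, y⟫_ℂ‖ ^ 2) ≤ g fun y => ‖⟪π u v, y⟫_ℂ‖ ^ 2 := by
  classical
  have K0 : 0 ≤ K := by rw [hK]; positivity
  let p : (H →₀ ℝ) → ℝ := fun x => x.sum fun v a => K * (|a| * ‖v‖ ^ 2)
  have hp : ∀ (x : H →₀ ℝ) (s : Finset H), x.support ⊆ s →
      p x = ∑ v ∈ s, K * (|x v| * ‖v‖ ^ 2) := fun x s hs =>
    Finsupp.sum_of_support_subset x hs _ (by simp)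
  let φ : H × unitary A × H × LinearMap.ker (th H) → (H →₀ ℝ) := fun q => Finsupp.single q.1 1 +
    (Finsupp.single (π q.2.1 q.2.2.1) 1 - Finsupp.single q.2.2.1 1) + q.2.2.2.1
  have hφ : ∀ q y, th H (φ q) y = ‖⟪q.1, y⟫_ℂ‖ ^ 2 + (‖⟪π q.2.1 q.2.2.1, y⟫_ℂ‖ ^ 2
      - ‖⟪q.2.2.1, y⟫_ℂ‖ ^ 2) := fun q y => by
    simp only [φ, map_add, map_sub, LinearMap.mem_ker.1 q.2.2.2.2, add_zero, Pi.add_apply,
      Pi.sub_apply, th_single, Pi.zero_apply]
  obtain ⟨g, g1, g2⟩ := mo_family p (fun r hr x => by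
      rw [hp _ _ Finsupp.support_smul, hp x _ le_rfl, Finset.mul_sum]
      refine Finset.sum_congr rfl fun v _ => ?_
      rw [Finsupp.smul_apply, smul_eq_mul, abs_mul, abs_of_pos hr]; ring) (fun x y => by
      rw [hp _ _ Finsupp.support_add, hp x _ Finset.subset_union_left,
        hp y _ Finset.subset_union_right, ← Finset.sum_add_distrib]
      refine Finset.sum_le_sum fun v _ => ?_
      rw [Finsupp.add_apply, ← mul_add, ← add_mul]
      gcongr
      exact abs_add_le _ _) φ (fun q => ‖q.1‖ ^ 2) (fun r hr q => by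
      refine ⟨(√r • q.1, q.2.1, √r • q.2.2.1, ⟨r • φ q - φ (√r • q.1, q.2.1, √r • q.2.2.1, 0),
        ?_⟩), by simp [φ], by simp [norm_smul, mul_pow, Real.sq_sqrt hr.le]⟩
      rw [LinearMap.mem_ker, map_sub, map_smul]
      ext y
      simp only [Pi.sub_apply, Pi.smul_apply, hφ, ContinuousLinearMap.map_smul_of_tower, sq_inner,
        max_eq_left hr.le, smul_eq_mul, Pi.zero_apply]
      ring) (by
      intro ι _ q
      obtain ⟨x, hx⟩ : ∃ x, x = ∑ i, φ (q i) := ⟨_, rfl⟩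
      let k : Fin x.support.card → H := fun i => x.support.equivFin.symm i
      have hk : ∀ F : H → ℝ, ∑ v ∈ x.support, F v = ∑ i, F (k i) := fun F => by
        rw [← Finset.sum_coe_sort, ← x.support.equivFin.symm.sum_comp]
      have := unroll hc hπ (Sum.elim (fun i => (q i).1) fun i => √(-x (k i)) • k i)
        (fun i => √(x (k i)) • k i) (fun i => (q i).2.2.1) (fun i => (q i).2.1)
        (fun i => (q i).2.1.2) fun y => by
          have e1 := congrArg (fun z => th H z y) hx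
          simp only [map_sum, Finset.sum_apply, hφ, Finset.sum_add_distrib,
            Finset.sum_sub_distrib] at e1
          have e2 : th H x y = ∑ i, x (k i) * ‖⟪k i, y⟫_ℂ‖ ^ 2 := by
            rw [← hk fun v => x v * ‖⟪v, y⟫_ℂ‖ ^ 2]
            simp [th, Finsupp.linearCombination_apply, Finsupp.sum]
          have e3 : ∀ a b : ℝ, a * b = max a 0 * b - max (-a) 0 * b := fun a b => by
            rw [← sub_mul, max_zero_sub_max_neg_zero_eq_self]
          simp only [Fintype.sum_sum_type, Sum.elim_inl, Sum.elim_inr, sq_inner]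
          rw [e2, Finset.sum_congr rfl fun i _ => e3 _ _, Finset.sum_sub_distrib] at e1
          linarith
      rw [← hx, hp x _ le_rfl, hk, ← Finset.mul_sum]
      rw [Fintype.sum_sum_type, ← hK] at this
      refine (le_add_of_nonneg_right (by positivity)).trans (this.trans ?_)
      refine mul_le_mul_of_nonneg_left (Finset.sum_le_sum fun i _ => ?_) K0
      rw [norm_smul, mul_pow, Real.norm_eq_abs, sq_abs, Real.sq_sqrt']
      exact mul_le_mul_of_nonneg_right (max_le (le_abs_self _) (abs_nonneg _)) (sq_nonneg _))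
  have z0 : th H (Finsupp.single 0 1) = 0 := by ext y; simp [th_single]
  have g3 : ∀ n, th H n = 0 → 0 ≤ g n := fun n hn => by
    have := g2 (0, 1, 0, ⟨n - Finsupp.single 0 1, by simp [hn, z0]⟩)
    rwa [show φ _ = n by simp [φ], norm_zero, zero_pow two_ne_zero] at this
  obtain ⟨g', hg⟩ := factor (th H) g fun n hn =>
    le_antisymm (by simpa using g3 (-n) (by simp [hn])) (g3 n hn)
  have g4 : ∀ v, (g' fun y => ‖⟪v, y⟫_ℂ‖ ^ 2) = g (Finsupp.single v 1) := fun v => by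
    rw [← hg]; exact congrArg g' (funext fun y => (th_single v y).symm)
  refine ⟨g', fun v => ?_, fun v => ?_, fun u hu v => ?_⟩
  · simpa [g4, φ] using g2 (v, 1, 0, 0)
  · simpa [g4, p] using g1 (Finsupp.single v 1)
  · have := g2 (0, ⟨u, hu⟩, v, ⟨-Finsupp.single 0 1, by simp [z0]⟩)
    simpa [g4, φ] using this

theorem op_q (hc : 0 ≤ c) (hπ : ∀ a, ‖π a‖ ≤ c * ‖a‖) {K : ℝ} (hK : K = 4 * (K2 c + 1) ^ 2) :
    ∃ T : H →L[ℂ] H, 1 ≤ T ∧ ‖T‖ ≤ K ∧ ∀ u ∈ unitary A, star (π u) * T * π u = T := by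
  have K0 : 0 ≤ K := by rw [hK]; positivity
  obtain ⟨g, g1, g2, g3⟩ := form_q hc hπ hK
  let G : (H → ℂ) →ₗ[ℂ] ℂ := Module.Dual.extendRCLike (g ∘ₗ Complex.reLm.compLeft H)
  have hG : ∀ F, G F = g (fun y => (F y).re) + Complex.I * g fun y => (F y).im := fun F => by
    have : (Complex.reLm.compLeft H) (Complex.I • F) = -fun y => (F y).im := by ext y; simp
    simp only [G, Module.Dual.extendRCLike_apply, RCLike.I_to_complex, LinearMap.comp_apply, this,
      map_neg]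
    simp; rfl
  let B : H → H → ℂ := fun v w => G fun y => ⟪v, y⟫_ℂ * ⟪y, w⟫_ℂ
  have B1 : ∀ v, B v v = g fun y => ‖⟪v, y⟫_ℂ‖ ^ 2 := fun v => by
    have : ∀ y, ⟪v, y⟫_ℂ * ⟪y, v⟫_ℂ = ((‖⟪v, y⟫_ℂ‖ ^ 2 : ℝ) : ℂ) := fun y => by
      rw [← inner_conj_symm y, Complex.mul_conj', Complex.ofReal_pow]
    simp only [B, hG, this, Complex.ofReal_re, Complex.ofReal_im]
    simp [show (fun _ : H => (0 : ℝ)) = 0 from rfl]
  have B2 : ∀ v w, conj (B w v) = B v w := fun v w => by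
    have : ∀ y, ⟪w, y⟫_ℂ * ⟪y, v⟫_ℂ = conj (⟪v, y⟫_ℂ * ⟪y, w⟫_ℂ) := fun y => by
      simp [mul_comm]
    simp only [B, hG, this, Complex.conj_re, Complex.conj_im]
    rw [show (fun y => -(⟪v, y⟫_ℂ * ⟪y, w⟫_ℂ).im) = -fun y => (⟪v, y⟫_ℂ * ⟪y, w⟫_ℂ).im from rfl]
    simp
  have B3 : ∀ v v' w, B (v + v') w = B v w + B v' w := fun v v' w => by
    simp only [B, ← map_add]; congr 1; ext y; simp [inner_add_left, add_mul]
  have B4 : ∀ (r : ℂ) v w, B (r • v) w = conj r * B v w := fun r v w => by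
    simp only [B, ← smul_eq_mul (conj r), ← map_smul]; congr 1; ext y
    simp [inner_smul_left, mul_assoc, mul_left_comm]
  have B5 : ∀ v w, ‖B v w‖ ≤ K * ‖v‖ * ‖w‖ := fun v w => by
    have := @InnerProductSpace.Core.inner_mul_inner_self_le ℂ H _ _ _
      { inner := B, conj_inner_symm := B2, add_left := B3, smul_left := fun v w r => B4 r v w,
        re_inner_nonneg := fun v => by
          show 0 ≤ (B v v).re
          rw [B1]; exact (sq_nonneg _).trans (g1 v) } v w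
    change ‖B v w‖ * ‖B w v‖ ≤ (B v v).re * (B w w).re at this
    rw [← B2 w v, RCLike.norm_conj, B1, B1, Complex.ofReal_re, Complex.ofReal_re] at this
    refine (pow_le_pow_iff_left₀ (norm_nonneg _) (by positivity) two_ne_zero).1 ?_
    have k := mul_le_mul (g2 v) (g2 w) ((sq_nonneg _).trans (g1 w)) (by positivity)
    nlinarith
  let T := InnerProductSpace.continuousLinearMapOfBilin (LinearMap.mkContinuous₂
    (LinearMap.mk₂'ₛₗ (starRingEnd ℂ) (RingHom.id ℂ) B B3 B4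
      (fun v w w' => by rw [← B2, B3, map_add, B2, B2])
      fun r v w => by rw [← B2, B4, map_mul, B2]; simp) K B5)
  have hT : ∀ v, ⟪T v, v⟫_ℂ = g fun y => ‖⟪v, y⟫_ℂ‖ ^ 2 := fun v =>
    (InnerProductSpace.continuousLinearMapOfBilin_apply _ v v).trans (B1 v)
  have hT2 : ∀ v w, ⟪T v, w⟫_ℂ = B v w := fun v w =>
    InnerProductSpace.continuousLinearMapOfBilin_apply _ v w
  refine ⟨T, ?_, T.opNorm_le_bound K0 fun v => ?_, fun u hu => ?_⟩
  rotate_left
  · have h1 := B5 v (T v)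
    rw [← hT2, inner_self_eq_norm_sq_to_K, norm_pow, RCLike.norm_ofReal, abs_norm, sq] at h1
    rcases (norm_nonneg (T v)).eq_or_lt with h | h
    · rw [← h]; positivity
    · exact le_of_mul_le_mul_right h1 h
  rotate_left
  · rw [← sub_nonneg, ContinuousLinearMap.nonneg_iff_isPositive,
      ContinuousLinearMap.isPositive_iff_complex]
    intro v
    have : ⟪(T - 1) v, v⟫_ℂ = (((g fun y => ‖⟪v, y⟫_ℂ‖ ^ 2) - ‖v‖ ^ 2 : ℝ) : ℂ) := by
      simp [inner_sub_left, hT]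
    rw [this]
    exact ⟨by simp only [RCLike.re_to_complex, Complex.ofReal_re], sub_nonneg.2 (g1 v)⟩
  · refine ContinuousLinearMap.coe_injective ((ext_inner_map _ _).1 fun v => ?_)
    have := g3 _ (Unitary.star_mem hu) (π u v)
    rw [← ContinuousLinearMap.mul_apply, ← map_mul, Unitary.star_mul_self_of_mem hu, map_one,
      ContinuousLinearMap.one_apply] at this
    show ⟪star (π u) (T (π u v)), v⟫_ℂ = ⟪T v, v⟫_ℂ
    rw [ContinuousLinearMap.star_eq_adjoint, ContinuousLinearMap.adjoint_inner_left, hT, hT,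
      le_antisymm this (g3 u hu v)]

end Vale.Agent.P096H
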